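import Crest.Agent.Helper62.S0466.Defs

/-!
# S0466 — leaf CON (helper65): contraction of a tight odd set

`WF_contract` : contracting `S` to `r ∈ S` keeps the graph well formed.
`QQ_contract` : contracting a tight odd set `S` maps Edmonds' polyhedron `QQ` of the graph into
the `QQ` of the contracted graph.

Same names and signatures as `Crest/Agent/Helper62/S0466/Blueprint.lean`.
-/

set_option autoImplicit false

namespace Crest.Agent.Helper65.S0466

open Crest.Agent.Helper62.S0466

set_option linter.unusedSectionVars false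
set_option linter.unusedVariables false

variable {V E : Type} [DecidableEq V] [DecidableEq E]

theorem retr_of_mem {S : Finset V} {r v : V} (h : v ∈ S) : retr S r v = r := if_pos h

theorem retr_of_not_mem {S : Finset V} {r v : V} (h : v ∉ S) : retr S r v = v := if_neg h

/-- Contracting `S` to `r ∈ S` keeps the graph well formed. -/
theorem WF_contract {ends : E → V × V} {A : Finset V} {F : Finset E} (hWF : WF ends A F)
    {S : Finset V} {r : V} (hr : r ∈ S) :
    WF (cEnds ends S r) (cVerts A S r) (cEdges ends F S) := by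
  intro e he
  simp only [cEdges, Finset.mem_filter] at he
  obtain ⟨heF, hnot⟩ := he
  obtain ⟨h1, h2, h3⟩ := hWF e heF
  simp only [cEnds, cVerts, Finset.mem_insert, Finset.mem_sdiff]
  by_cases ha : (ends e).1 ∈ S <;> by_cases hb : (ends e).2 ∈ S
  · exact absurd ⟨ha, hb⟩ hnot
  · rw [retr_of_mem ha, retr_of_not_mem hb]
    exact ⟨Or.inl rfl, Or.inr ⟨h2, hb⟩, fun h => hb (h ▸ hr)⟩
  · rw [retr_of_not_mem ha, retr_of_mem hb]
    exact ⟨Or.inr ⟨h1, ha⟩, Or.inl rfl, fun h => ha (h.symm ▸ hr)⟩
  · rw [retr_of_not_mem ha, retr_of_not_mem hb]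
    exact ⟨Or.inr ⟨h1, ha⟩, Or.inr ⟨h2, hb⟩, h3⟩

/-- A cut of the contracted graph is the cut of the original graph along the preimage of the
vertex set under the retraction. -/
theorem cut_contract {ends : E → V × V} {F : Finset E} {S : Finset V} {r : V} {U U' : Finset V}
    (h : ∀ v, retr S r v ∈ U ↔ v ∈ U') :
    cut (cEnds ends S r) (cEdges ends F S) U = cut ends F U' := by
  ext e
  simp only [cut, cEdges, cEnds, Finset.mem_filter, h]
  constructor
  · rintro ⟨⟨heF, -⟩, hc⟩
    exact ⟨heF, hc⟩
  · rintro ⟨heF, hc⟩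
    refine ⟨⟨heF, ?_⟩, hc⟩
    rintro ⟨ha, hb⟩
    have h1 : (ends e).1 ∈ U' ↔ r ∈ U := by rw [← h, retr_of_mem ha]
    have h2 : (ends e).2 ∈ U' ↔ r ∈ U := by rw [← h, retr_of_mem hb]
    rcases hc with ⟨hc1, hc2⟩ | ⟨hc1, hc2⟩
    · exact hc2 (h2.mpr (h1.mp hc1))
    · exact hc1 (h1.mpr (h2.mp hc2))

/-- The star of the representative in the contracted graph is the cut of `S`. -/
theorem star_contract_rep {ends : E → V × V} {F : Finset E} {S : Finset V} {r : V} (hr : r ∈ S) :
    Helper62.S0466.star (cEnds ends S r) (cEdges ends F S) r = cut ends F S := by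
  have hret : ∀ v, retr S r v = r ↔ v ∈ S := by
    intro v
    by_cases hv : v ∈ S
    · simp [retr_of_mem hv, hv]
    · rw [retr_of_not_mem hv]
      exact ⟨fun h => absurd (h ▸ hr) hv, fun h => absurd h hv⟩
  ext e
  simp only [Helper62.S0466.star, cut, cEdges, cEnds, Finset.mem_filter, hret]
  tauto

/-- The star of a vertex outside `S` is unchanged by the contraction. -/
theorem star_contract_of_not_mem {ends : E → V × V} {F : Finset E} {S : Finset V} {r : V}
    (hr : r ∈ S) {w : V} (hw : w ∉ S) :
    Helper62.S0466.star (cEnds ends S r) (cEdges ends F S) w = Helper62.S0466.star ends F w := by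
  have hret : ∀ v, retr S r v = w ↔ v = w := by
    intro v
    by_cases hv : v ∈ S
    · rw [retr_of_mem hv]
      exact ⟨fun h => absurd (h ▸ hr) hw, fun h => absurd (h ▸ hv) hw⟩
    · rw [retr_of_not_mem hv]
  ext e
  simp only [Helper62.S0466.star, cEdges, cEnds, Finset.mem_filter, hret]
  constructor
  · rintro ⟨⟨heF, -⟩, hc⟩
    exact ⟨heF, hc⟩
  · rintro ⟨heF, hc⟩
    refine ⟨⟨heF, ?_⟩, hc⟩
    rintro ⟨ha, hb⟩
    rcases hc with hc | hc
    · exact hw (hc ▸ ha)
    · exact hw (hc ▸ hb)

/-- Contracting a tight odd set `S` to `r ∈ S` maps `QQ` to the `QQ` of the contracted graph. -/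
theorem QQ_contract {ends : E → V × V} {A : Finset V} {F : Finset E} (hWF : WF ends A F)
    {x : E → ℝ} (hx : x ∈ QQ ends A F) {S : Finset V} (hSA : S ⊆ A) {r : V} (hr : r ∈ S)
    (hodd : Odd S.card) (htight : ∑ e ∈ cut ends F S, x e = 1) :
    cVec ends S x ∈ QQ (cEnds ends S r) (cVerts A S r) (cEdges ends F S) := by
  obtain ⟨hx0, hxnn, hxstar, hxcut⟩ := hx
  have hsum : ∀ T : Finset E, T ⊆ cEdges ends F S →
      ∑ e ∈ T, cVec ends S x e = ∑ e ∈ T, x e := by
    intro T hT
    refine Finset.sum_congr rfl fun e he => ?_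
    have := hT he
    simp only [cEdges, Finset.mem_filter] at this
    simp only [cVec, if_neg this.2]
  have hstar_sub : ∀ w, Helper62.S0466.star (cEnds ends S r) (cEdges ends F S) w ⊆ cEdges ends F S :=
    fun w => Finset.filter_subset _ _
  have hcut_sub : ∀ U, cut (cEnds ends S r) (cEdges ends F S) U ⊆ cEdges ends F S :=
    fun U => Finset.filter_subset _ _
  refine ⟨?_, ?_, ?_, ?_⟩
  · intro e he
    simp only [cVec]
    split_ifs with h
    · rfl
    · apply hx0
      intro heF
      exact he (by simp only [cEdges, Finset.mem_filter]; exact ⟨heF, h⟩)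
  · intro e
    simp only [cVec]
    split_ifs
    · exact le_rfl
    · exact hxnn e
  · intro w hw
    rw [hsum _ (hstar_sub w)]
    simp only [cVerts, Finset.mem_insert, Finset.mem_sdiff] at hw
    rcases hw with rfl | ⟨hwA, hwS⟩
    · rw [star_contract_rep hr, htight]
    · rw [star_contract_of_not_mem hr hwS]
      exact hxstar w hwA
  · intro U hU hUodd
    rw [hsum _ (hcut_sub U)]
    have hUmem : ∀ v ∈ U, v = r ∨ (v ∈ A ∧ v ∉ S) := by
      intro v hv
      have := hU hv
      simpa only [cVerts, Finset.mem_insert, Finset.mem_sdiff] using this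
    by_cases hrU : r ∈ U
    · have h : ∀ v, retr S r v ∈ U ↔ v ∈ U ∪ S := by
        intro v
        by_cases hv : v ∈ S
        · simp [retr_of_mem hv, hv, hrU]
        · simp [retr_of_not_mem hv, hv]
      rw [cut_contract h]
      apply hxcut
      · refine Finset.union_subset ?_ hSA
        intro v hv
        rcases hUmem v hv with rfl | ⟨hvA, -⟩
        · exact hSA hr
        · exact hvA
      · have hinter : U ∩ S = {r} := by
          ext v
          simp only [Finset.mem_inter, Finset.mem_singleton]
          constructor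
          · rintro ⟨hvU, hvS⟩
            rcases hUmem v hvU with rfl | ⟨-, hvS'⟩
            · rfl
            · exact absurd hvS hvS'
          · rintro rfl
            exact ⟨hrU, hr⟩
        have hcard := Finset.card_union_add_card_inter U S
        rw [hinter, Finset.card_singleton] at hcard
        obtain ⟨a, ha⟩ := hUodd
        obtain ⟨b, hb⟩ := hodd
        exact ⟨a + b, by omega⟩
    · have h : ∀ v, retr S r v ∈ U ↔ v ∈ U := by
        intro v
        by_cases hv : v ∈ S
        · rw [retr_of_mem hv]
          refine ⟨fun h => absurd h hrU, fun h => ?_⟩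
          rcases hUmem v h with rfl | ⟨-, hvS⟩
          · exact absurd h hrU
          · exact absurd hv hvS
        · rw [retr_of_not_mem hv]
      rw [cut_contract h]
      refine hxcut U ?_ hUodd
      intro v hv
      rcases hUmem v hv with rfl | ⟨hvA, -⟩
      · exact absurd hv hrU
      · exact hvA

end Crest.Agent.Helper65.S0466
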