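import Crest.Agent.Helper62.S0466.Defs
import Crest.Agent.Helper62.S0466.Uncross

/-!
# S0466 — leaf CS (helper65, hedge copy): the tight odd sets form a cut system

`exists_tightSystem` : for a point `x` of Edmonds' polyhedron `QQ` of the full graph, the odd
sets `U` with `x(δ(U)) = 1` together with the vectors `1_{δ(U) ∩ supp x}` form a `CutSystem`
(closed under complement and under uncrossing).

Same name and signature as `Crest/Agent/Helper62/S0466/Blueprint.lean`.
-/

set_option autoImplicit false

namespace Crest.Agent.Helper65.S0466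

open Crest.Agent.Helper62.S0466

set_option linter.unusedSectionVars false
set_option linter.unusedVariables false

variable {V E : Type} [DecidableEq V] [DecidableEq E]

/-- Real indicator of "exactly one end of `e` lies in `U`". -/
noncomputable def chi (ends : E → V × V) (U : Finset V) (e : E) : ℝ :=
  if ((ends e).1 ∈ U ∧ (ends e).2 ∉ U) ∨ ((ends e).1 ∉ U ∧ (ends e).2 ∈ U) then 1 else 0

/-- Real indicator of "`e` joins `S \ T` and `T \ S`". -/
noncomputable def kap (ends : E → V × V) (S T : Finset V) (e : E) : ℝ :=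
  if (((ends e).1 ∈ S ∧ (ends e).1 ∉ T) ∧ ((ends e).2 ∈ T ∧ (ends e).2 ∉ S)) ∨
     (((ends e).1 ∈ T ∧ (ends e).1 ∉ S) ∧ ((ends e).2 ∈ S ∧ (ends e).2 ∉ T)) then 1 else 0

theorem kap_nonneg (ends : E → V × V) (S T : Finset V) (e : E) : 0 ≤ kap ends S T e := by
  unfold kap
  split_ifs <;> norm_num

/-- The pointwise uncrossing identity for cut indicators. -/
theorem chi_uncross (ends : E → V × V) (S T : Finset V) (e : E) :
    chi ends S e + chi ends T e
      = chi ends (S ∩ T) e + chi ends (S ∪ T) e + 2 * kap ends S T e := by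
  unfold chi kap
  simp only [Finset.mem_inter, Finset.mem_union]
  by_cases h1 : (ends e).1 ∈ S <;> by_cases h2 : (ends e).1 ∈ T <;>
    by_cases h3 : (ends e).2 ∈ S <;> by_cases h4 : (ends e).2 ∈ T <;>
    simp [h1, h2, h3, h4] <;> norm_num

theorem mem_cut_univ [Fintype E] (ends : E → V × V) (U : Finset V) (e : E) :
    e ∈ cut ends Finset.univ U ↔
      ((ends e).1 ∈ U ∧ (ends e).2 ∉ U) ∨ ((ends e).1 ∉ U ∧ (ends e).2 ∈ U) := by
  simp only [cut, Finset.mem_filter, Finset.mem_univ, true_and]

theorem sum_cut_eq [Fintype E] (ends : E → V × V) (U : Finset V) (x : E → ℝ) :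
    ∑ e ∈ cut ends Finset.univ U, x e = ∑ e, chi ends U e * x e := by
  unfold cut chi
  rw [Finset.sum_filter]
  refine Finset.sum_congr rfl fun e _ => ?_
  split_ifs <;> simp

/-- The cut vector of the blueprint equals `chi` on the support of `x`. -/
theorem cvec_eq_chi [Fintype E] (ends : E → V × V) (U : Finset V) (x : E → ℝ) (e : E)
    (hxe : 0 < x e) :
    (if e ∈ cut ends Finset.univ U ∧ 0 < x e then (1 : ℝ) else 0) = chi ends U e := by
  unfold chi
  simp only [mem_cut_univ, hxe, and_true]

theorem cvec_eq_zero [Fintype E] (ends : E → V × V) (U : Finset V) (x : E → ℝ) (e : E)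
    (hxe : ¬ 0 < x e) :
    (if e ∈ cut ends Finset.univ U ∧ 0 < x e then (1 : ℝ) else 0) = 0 := by
  simp only [hxe, and_false, if_false]

/-- The tight odd sets of a point of `QQ` of the full graph form a cut system, with cut vectors
the indicators of the positive part of the cut. -/
theorem exists_tightSystem [Fintype V] [Fintype E] {ends : E → V × V}
    (hWF : WF ends Finset.univ Finset.univ) {x : E → ℝ}
    (hx : x ∈ QQ ends Finset.univ Finset.univ) :
    ∃ C : CutSystem V (E → ℝ),
      C.T = {U : Finset V | Odd U.card ∧ ∑ e ∈ cut ends Finset.univ U, x e = 1} ∧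
      C.c = fun U e => if e ∈ cut ends Finset.univ U ∧ 0 < x e then 1 else 0 := by
  obtain ⟨hx0, hxnn, hxstar, hxcut⟩ := hx
  have hcutge : ∀ U : Finset V, Odd U.card → 1 ≤ ∑ e ∈ cut ends Finset.univ U, x e :=
    fun U hU => hxcut U (Finset.subset_univ U) hU
  have heven : Even (Finset.univ : Finset V).card := by
    by_contra h
    have hodd : Odd (Finset.univ : Finset V).card := Nat.not_even_iff_odd.mp h
    have h1 := hcutge Finset.univ hodd
    have h2 : cut ends (Finset.univ : Finset E) (Finset.univ : Finset V) = ∅ := by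
      ext e
      simp [mem_cut_univ]
    rw [h2, Finset.sum_empty] at h1
    linarith
  have hcompl : ∀ U : Finset V,
      cut ends (Finset.univ : Finset E) Uᶜ = cut ends Finset.univ U := by
    intro U
    ext e
    simp only [mem_cut_univ, Finset.mem_compl]
    tauto
  have hsingle : ∀ v : V, cut ends (Finset.univ : Finset E) {v}
      = Helper62.S0466.star ends Finset.univ v := by
    intro v
    ext e
    have hne := (hWF e (Finset.mem_univ e)).2.2
    simp only [mem_cut_univ, Helper62.S0466.star, Finset.mem_filter, Finset.mem_univ, true_and,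
      Finset.mem_singleton]
    constructor
    · rintro (⟨h1, -⟩ | ⟨-, h2⟩)
      · exact Or.inl h1
      · exact Or.inr h2
    · rintro (h1 | h2)
      · exact Or.inl ⟨h1, fun h => hne (h1.trans h.symm)⟩
      · exact Or.inr ⟨fun h => hne (h.trans h2.symm), h2⟩
  -- the key uncrossing facts
  have key : ∀ S T : Finset V, Odd S.card → ∑ e ∈ cut ends Finset.univ S, x e = 1 →
      Odd T.card → ∑ e ∈ cut ends Finset.univ T, x e = 1 → Odd (S ∩ T).card →
      Odd (S ∪ T).card ∧ ∑ e ∈ cut ends Finset.univ (S ∩ T), x e = 1 ∧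
        ∑ e ∈ cut ends Finset.univ (S ∪ T), x e = 1 ∧ ∀ e, kap ends S T e * x e = 0 := by
    intro S T hS hSt hT hTt hI
    have hU : Odd (S ∪ T).card := by
      have hc := Finset.card_union_add_card_inter S T
      obtain ⟨a, ha⟩ := hS
      obtain ⟨b, hb⟩ := hT
      obtain ⟨c, hc'⟩ := hI
      exact ⟨a + b - c, by omega⟩
    have h1 := hcutge _ hI
    have h2 := hcutge _ hU
    have hid : ∑ e ∈ cut ends Finset.univ S, x e + ∑ e ∈ cut ends Finset.univ T, x e
        = ∑ e ∈ cut ends Finset.univ (S ∩ T), x e + ∑ e ∈ cut ends Finset.univ (S ∪ T), x e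
          + 2 * ∑ e, kap ends S T e * x e := by
      simp only [sum_cut_eq]
      rw [Finset.mul_sum, ← Finset.sum_add_distrib, ← Finset.sum_add_distrib,
        ← Finset.sum_add_distrib]
      refine Finset.sum_congr rfl fun e _ => ?_
      have := chi_uncross ends S T e
      linear_combination x e * this
    have hk0 : ∀ e, 0 ≤ kap ends S T e * x e := fun e => mul_nonneg (kap_nonneg ends S T e) (hxnn e)
    have hksum : 0 ≤ ∑ e, kap ends S T e * x e := Finset.sum_nonneg fun e _ => hk0 e
    have hkz : ∑ e, kap ends S T e * x e = 0 := by linarith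
    refine ⟨hU, by linarith, by linarith, fun e => ?_⟩
    exact (Finset.sum_eq_zero_iff_of_nonneg fun e _ => hk0 e).mp hkz e (Finset.mem_univ e)
  refine ⟨{ T := {U : Finset V | Odd U.card ∧ ∑ e ∈ cut ends Finset.univ U, x e = 1}
            c := fun U e => if e ∈ cut ends Finset.univ U ∧ 0 < x e then 1 else 0
            odd := fun U hU => hU.1
            single := ?_
            ne_zero := ?_
            compl_mem := ?_
            c_compl := ?_
            inter_mem := ?_
            union_mem := ?_
            uncross := ?_ }, rfl, rfl⟩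
  · -- singletons
    intro v
    refine ⟨by simp, ?_⟩
    rw [hsingle v]
    exact hxstar v (Finset.mem_univ v)
  · -- nonzero cut vectors
    rintro U ⟨-, hUt⟩ h0
    have hz : ∀ e ∈ cut ends (Finset.univ : Finset E) U, x e = 0 := by
      intro e he
      by_contra hne
      have hpos : 0 < x e := lt_of_le_of_ne (hxnn e) (Ne.symm hne)
      have := congrFun h0 e
      simp only [he, hpos, and_self, if_true, Pi.zero_apply] at this
      exact one_ne_zero this
    rw [Finset.sum_eq_zero hz] at hUt
    exact zero_ne_one hUt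
  · -- complements
    rintro U ⟨hUodd, hUt⟩
    refine ⟨?_, by rw [hcompl U]; exact hUt⟩
    rw [Finset.card_compl]
    have hle : U.card ≤ Fintype.card V := Finset.card_le_univ U
    rw [Finset.card_univ] at heven
    obtain ⟨a, ha⟩ := heven
    obtain ⟨b, hb⟩ := hUodd
    exact ⟨a - b - 1, by omega⟩
  · -- cut vector of the complement
    rintro U -
    funext e
    simp only [hcompl U]
  · -- intersections
    rintro S ⟨hS, hSt⟩ T ⟨hT, hTt⟩ hI
    obtain ⟨-, h1, -, -⟩ := key S T hS hSt hT hTt hI
    exact ⟨hI, h1⟩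
  · -- unions
    rintro S ⟨hS, hSt⟩ T ⟨hT, hTt⟩ hI
    obtain ⟨hU, -, h2, -⟩ := key S T hS hSt hT hTt hI
    exact ⟨hU, h2⟩
  · -- uncrossing identity
    rintro S ⟨hS, hSt⟩ T ⟨hT, hTt⟩ hI
    obtain ⟨-, -, -, hk⟩ := key S T hS hSt hT hTt hI
    funext e
    simp only [Pi.add_apply]
    by_cases hxe : 0 < x e
    · rw [cvec_eq_chi ends S x e hxe, cvec_eq_chi ends T x e hxe,
        cvec_eq_chi ends (S ∩ T) x e hxe, cvec_eq_chi ends (S ∪ T) x e hxe]
      have hk0 : kap ends S T e = 0 := by
        rcases mul_eq_zero.mp (hk e) with h | h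
        · exact h
        · exact absurd h hxe.ne'
      have := chi_uncross ends S T e
      rw [hk0] at this
      linarith
    · rw [cvec_eq_zero ends S x e hxe, cvec_eq_zero ends T x e hxe,
        cvec_eq_zero ends (S ∩ T) x e hxe, cvec_eq_zero ends (S ∪ T) x e hxe]

end Crest.Agent.Helper65.S0466
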