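import Crest.Agent.Helper62.S0466.Defs

/-!
# S0466 — leaf EASY (helper65, hedge copy): `PP ⊆ QQ`

The perfect-matching polytope lies in Edmonds' polyhedron: the indicator of a perfect matching
has star sums `1` and meets every odd cut (parity), and `QQ` is convex.

Same name and signature as `Crest/Agent/Helper62/S0466/Blueprint.lean`.
-/

set_option autoImplicit false

namespace Crest.Agent.Helper65.S0466

open Crest.Agent.Helper62.S0466

set_option linter.unusedSectionVars false
set_option linter.unusedVariables false

variable {V E : Type} [DecidableEq V] [DecidableEq E]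

/-- Sum of a matching indicator over an edge set = number of matching edges in it. -/
theorem sum_ind_eq_card (M T : Finset E) :
    ∑ e ∈ T, ind M e = ((T.filter fun e => e ∈ M).card : ℝ) := by
  unfold ind
  rw [Finset.sum_boole]

theorem star_filter_mem {ends : E → V × V} {F M : Finset E} (hMF : M ⊆ F) (w : V) :
    (Helper62.S0466.star ends F w).filter (fun e => e ∈ M) = Helper62.S0466.star ends M w := by
  ext e
  simp only [Helper62.S0466.star, Finset.mem_filter]
  constructor
  · rintro ⟨⟨-, h⟩, hM⟩
    exact ⟨hM, h⟩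
  · rintro ⟨hM, h⟩
    exact ⟨⟨hMF hM, h⟩, hM⟩

theorem cut_filter_mem {ends : E → V × V} {F M : Finset E} (hMF : M ⊆ F) (U : Finset V) :
    (cut ends F U).filter (fun e => e ∈ M) = cut ends M U := by
  ext e
  simp only [cut, Finset.mem_filter]
  constructor
  · rintro ⟨⟨-, h⟩, hM⟩
    exact ⟨hM, h⟩
  · rintro ⟨hM, h⟩
    exact ⟨⟨hMF hM, h⟩, hM⟩

/-- Edmonds' polyhedron is convex. -/
theorem convex_QQ (ends : E → V × V) (A : Finset V) (F : Finset E) :
    Convex ℝ (QQ ends A F) := by
  rintro x ⟨hx0, hxnn, hxstar, hxcut⟩ y ⟨hy0, hynn, hystar, hycut⟩ a b ha hb hab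
  have hsum : ∀ T : Finset E, ∑ e ∈ T, (a • x + b • y) e
      = a * ∑ e ∈ T, x e + b * ∑ e ∈ T, y e := by
    intro T
    simp only [Pi.add_apply, Pi.smul_apply, smul_eq_mul]
    rw [Finset.sum_add_distrib, Finset.mul_sum, Finset.mul_sum]
  refine ⟨?_, ?_, ?_, ?_⟩
  · intro e he
    simp only [Pi.add_apply, Pi.smul_apply, smul_eq_mul, hx0 e he, hy0 e he, mul_zero, add_zero]
  · intro e
    simp only [Pi.add_apply, Pi.smul_apply, smul_eq_mul]
    exact add_nonneg (mul_nonneg ha (hxnn e)) (mul_nonneg hb (hynn e))
  · intro w hw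
    rw [hsum, hxstar w hw, hystar w hw]
    linarith
  · intro U hU hodd
    rw [hsum]
    have h1 := hxcut U hU hodd
    have h2 := hycut U hU hodd
    nlinarith [mul_le_mul_of_nonneg_left h1 ha, mul_le_mul_of_nonneg_left h2 hb]

/-- A perfect matching meets every odd cut. -/
theorem cut_nonempty_of_isPM {ends : E → V × V} {A : Finset V} {F : Finset E}
    (hWF : WF ends A F) {M : Finset E} (hM : IsPM ends A F M) {U : Finset V} (hU : U ⊆ A)
    (hodd : Odd U.card) : (cut ends M U).Nonempty := by
  by_contra hne
  rw [Finset.not_nonempty_iff_eq_empty] at hne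
  obtain ⟨hMF, hdeg⟩ := hM
  -- double counting of incidences between `U` and `M`
  have hcount := Finset.sum_card_bipartiteAbove_eq_sum_card_bipartiteBelow (s := U) (t := M)
    (fun (w : V) (e : E) => (ends e).1 = w ∨ (ends e).2 = w)
  have hL : ∑ w ∈ U, (M.bipartiteAbove (fun (w : V) (e : E) => (ends e).1 = w ∨ (ends e).2 = w) w).card
      = U.card := by
    rw [Finset.card_eq_sum_ones]
    refine Finset.sum_congr rfl fun w hw => ?_
    exact hdeg w (hU hw)
  have hR : Even (∑ e ∈ M,
      (U.bipartiteBelow (fun (w : V) (e : E) => (ends e).1 = w ∨ (ends e).2 = w) e).card) := by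
    refine Finset.even_sum _ fun e he => ?_
    have hne12 : (ends e).1 ≠ (ends e).2 := (hWF e (hMF he)).2.2
    have hnc : e ∉ cut ends M U := by rw [hne]; exact Finset.notMem_empty e
    simp only [cut, Finset.mem_filter, not_and] at hnc
    have hnc' := hnc he
    by_cases h1 : (ends e).1 ∈ U
    · have h2 : (ends e).2 ∈ U := by
        by_contra h2
        exact hnc' (Or.inl ⟨h1, h2⟩)
      have : U.bipartiteBelow (fun (w : V) (e : E) => (ends e).1 = w ∨ (ends e).2 = w) e
          = {(ends e).1, (ends e).2} := by
        ext w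
        simp only [Finset.bipartiteBelow, Finset.mem_filter, Finset.mem_insert,
          Finset.mem_singleton]
        constructor
        · rintro ⟨-, h | h⟩
          · exact Or.inl h.symm
          · exact Or.inr h.symm
        · rintro (h | h)
          · exact ⟨h ▸ h1, Or.inl h.symm⟩
          · exact ⟨h ▸ h2, Or.inr h.symm⟩
      rw [this, Finset.card_pair hne12]
      exact even_two
    · have h2 : (ends e).2 ∉ U := by
        intro h2
        exact hnc' (Or.inr ⟨h1, h2⟩)
      have : U.bipartiteBelow (fun (w : V) (e : E) => (ends e).1 = w ∨ (ends e).2 = w) e = ∅ := by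
        ext w
        simp only [Finset.bipartiteBelow, Finset.mem_filter, Finset.notMem_empty, iff_false,
          not_and]
        rintro hw (h | h)
        · exact h1 (h ▸ hw)
        · exact h2 (h ▸ hw)
      rw [this, Finset.card_empty]
      exact Even.zero
  rw [← hcount, hL] at hR
  exact (Nat.not_even_iff_odd.mpr hodd) hR

/-- The perfect-matching polytope lies in Edmonds' polyhedron. -/
theorem PP_subset_QQ {ends : E → V × V} {A : Finset V} {F : Finset E} (hWF : WF ends A F) :
    PP ends A F ⊆ QQ ends A F := by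
  refine convexHull_min ?_ (convex_QQ ends A F)
  rintro _ ⟨M, hM, rfl⟩
  have hM' : IsPM ends A F M := hM
  obtain ⟨hMF, hdeg⟩ := hM'
  refine ⟨?_, ?_, ?_, ?_⟩
  · intro e he
    have : e ∉ M := fun h => he (hMF h)
    simp only [ind, this, if_false]
  · intro e
    unfold ind
    split_ifs <;> norm_num
  · intro w hw
    rw [sum_ind_eq_card, star_filter_mem hMF, hdeg w hw]
    norm_num
  · intro U hU hodd
    rw [sum_ind_eq_card, cut_filter_mem hMF]
    have := cut_nonempty_of_isPM hWF hM hU hodd
    exact_mod_cast Finset.card_pos.mpr this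

end Crest.Agent.Helper65.S0466
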