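import Crest.Agent.Helper62.S0466.Defs

/-!
# S0466 — leaf EXT2c (helper65, independent hedge copy): `false_of_two_regular`

A point of `QQ`, positive on `F`, in a graph with all degrees two, with bijective star map and
without nontrivial tight odd set: impossible.

Proof (notes/s0466/PROOF.md): pick `v`, `star v = {e, f}` with other ends `u`, `w`.
`u = w`: `1_e - 1_f` is a nonzero kernel vector of the star map.
`u ≠ w`: `S = {u, v, w}` is a tight odd set and no edge joins `u`, `w`; so `|A| = 4`, the graph
is bipartite with classes `{v, t}`, `{u, w}` and the star map is not onto.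

Same name and signature as `Crest/Agent/Helper62/S0466/Blueprint.lean`.
-/

set_option autoImplicit false

namespace Crest.Agent.Helper65.S0466

open Crest.Agent.Helper62.S0466

set_option linter.unusedSectionVars false
set_option linter.unusedVariables false

variable {V E : Type} [DecidableEq V] [DecidableEq E]

/-- Number of ends of `g` in `S`, as a real number. -/
noncomputable def nEnds (ends : E → V × V) (S : Finset V) (g : E) : ℝ :=
  (if (ends g).1 ∈ S then 1 else 0) + (if (ends g).2 ∈ S then 1 else 0)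

/-- Real indicator of "exactly one end of `g` in `S`". -/
noncomputable def xOne (ends : E → V × V) (S : Finset V) (g : E) : ℝ :=
  if ((ends g).1 ∈ S ∧ (ends g).2 ∉ S) ∨ ((ends g).1 ∉ S ∧ (ends g).2 ∈ S) then 1 else 0

/-- Real indicator of "both ends of `g` in `S`". -/
noncomputable def xBoth (ends : E → V × V) (S : Finset V) (g : E) : ℝ :=
  if (ends g).1 ∈ S ∧ (ends g).2 ∈ S then 1 else 0

theorem nEnds_eq (ends : E → V × V) (S : Finset V) (g : E) :
    nEnds ends S g = xOne ends S g + 2 * xBoth ends S g := by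
  unfold nEnds xOne xBoth
  by_cases h1 : (ends g).1 ∈ S <;> by_cases h2 : (ends g).2 ∈ S <;> simp [h1, h2] <;> norm_num

theorem xBoth_nonneg (ends : E → V × V) (S : Finset V) (g : E) : 0 ≤ xBoth ends S g := by
  unfold xBoth
  split_ifs <;> norm_num

/-- Double counting: the sum of the star sums over `S` counts each edge once per end in `S`. -/
theorem star_sum_eq {ends : E → V × V} {A : Finset V} {F : Finset E} (hWF : WF ends A F)
    (S : Finset V) (h : E → ℝ) :
    ∑ s ∈ S, ∑ g ∈ Helper62.S0466.star ends F s, h g = ∑ g ∈ F, nEnds ends S g * h g := by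
  unfold Helper62.S0466.star
  simp only [Finset.sum_filter]
  rw [Finset.sum_comm]
  refine Finset.sum_congr rfl fun g hg => ?_
  have hne : (ends g).1 ≠ (ends g).2 := (hWF g hg).2.2
  have hsplit : ∀ s, (if (ends g).1 = s ∨ (ends g).2 = s then h g else 0)
      = (if (ends g).1 = s then h g else 0) + (if (ends g).2 = s then h g else 0) := by
    intro s
    by_cases h1 : (ends g).1 = s <;> by_cases h2 : (ends g).2 = s
    · exact absurd (h1.trans h2.symm) hne
    · simp [h1, h2]
    · simp [h1, h2]
    · simp [h1, h2]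
  simp only [hsplit, Finset.sum_add_distrib, Finset.sum_ite_eq, nEnds]
  split_ifs <;> ring

theorem sum_cut_eq_xOne (ends : E → V × V) (F : Finset E) (S : Finset V) (x : E → ℝ) :
    ∑ g ∈ cut ends F S, x g = ∑ g ∈ F, xOne ends S g * x g := by
  unfold cut xOne
  rw [Finset.sum_filter]
  refine Finset.sum_congr rfl fun g _ => ?_
  split_ifs <;> simp

/-- Case analysis on the two ends of an edge of the 4-cycle. -/
theorem count_aux {u v w t p q : V} (huv : u ≠ v) (huw : u ≠ w) (hwv : w ≠ v) (htu : t ≠ u)
    (htv : t ≠ v) (htw : t ≠ w)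
    (hp : p = u ∨ p = v ∨ p = w ∨ p = t) (hq : q = u ∨ q = v ∨ q = w ∨ q = t) (hpq : p ≠ q)
    (h1 : ¬ ((p = v ∧ q = t) ∨ (p = t ∧ q = v))) (h2 : ¬ ((p = u ∧ q = w) ∨ (p = w ∧ q = u))) :
    (if p = u ∨ p = w then (1 : ℝ) else 0) + (if q = u ∨ q = w then 1 else 0) = 1 := by
  have huv' := huv.symm
  have huw' := huw.symm
  have hwv' := hwv.symm
  have htu' := htu.symm
  have htv' := htv.symm
  have htw' := htw.symm
  rcases hp with rfl | rfl | rfl | rfl <;> rcases hq with rfl | rfl | rfl | rfl <;> simp_all

/-- A point of `QQ`, positive on `F`, in a graph with all degrees two, with bijective star map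
and without nontrivial tight odd set: impossible. -/
theorem false_of_two_regular {ends : E → V × V} {A : Finset V} {F : Finset E} (hWF : WF ends A F)
    {x : E → ℝ} (hx : x ∈ QQ ends A F) (hpos : ∀ e ∈ F, 0 < x e) (hA : A.Nonempty)
    (hdeg2 : ∀ w ∈ A, (star ends F w).card = 2)
    (hinj : ∀ h : E → ℝ, (∀ e, e ∉ F → h e = 0) →
      (∀ w ∈ A, ∑ e ∈ star ends F w, h e = 0) → h = 0)
    (hsurj : ∀ y : V → ℝ, ∃ h : E → ℝ, (∀ e, e ∉ F → h e = 0) ∧
      ∀ w ∈ A, ∑ e ∈ star ends F w, h e = y w)
    (hnt : ∀ S : Finset V, S ⊆ A → Odd S.card → 3 ≤ S.card → S.card + 3 ≤ A.card →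
      ∑ e ∈ cut ends F S, x e ≠ 1) :
    False := by
  obtain ⟨hx0, hxnn, hxstar, hxcut⟩ := hx
  obtain ⟨v, hvA⟩ := hA
  obtain ⟨e, f, hef, hstar⟩ := Finset.card_eq_two.mp (hdeg2 v hvA)
  have heS : e ∈ Helper62.S0466.star ends F v := by rw [hstar]; simp
  have hfS : f ∈ Helper62.S0466.star ends F v := by rw [hstar]; simp
  simp only [Helper62.S0466.star, Finset.mem_filter] at heS hfS
  obtain ⟨heF, hev⟩ := heS
  obtain ⟨hfF, hfv⟩ := hfS
  -- the other ends of `e` and `f`
  obtain ⟨u, huA, huv, he⟩ : ∃ u, u ∈ A ∧ u ≠ v ∧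
      (((ends e).1 = v ∧ (ends e).2 = u) ∨ ((ends e).1 = u ∧ (ends e).2 = v)) := by
    obtain ⟨h1, h2, h3⟩ := hWF e heF
    rcases hev with h | h
    · exact ⟨(ends e).2, h2, fun h' => h3 (h.trans h'.symm), Or.inl ⟨h, rfl⟩⟩
    · exact ⟨(ends e).1, h1, fun h' => h3 (h'.trans h.symm), Or.inr ⟨rfl, h⟩⟩
  obtain ⟨w, hwA, hwv, hf⟩ : ∃ w, w ∈ A ∧ w ≠ v ∧
      (((ends f).1 = v ∧ (ends f).2 = w) ∨ ((ends f).1 = w ∧ (ends f).2 = v)) := by
    obtain ⟨h1, h2, h3⟩ := hWF f hfF
    rcases hfv with h | h
    · exact ⟨(ends f).2, h2, fun h' => h3 (h.trans h'.symm), Or.inl ⟨h, rfl⟩⟩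
    · exact ⟨(ends f).1, h1, fun h' => h3 (h'.trans h.symm), Or.inr ⟨rfl, h⟩⟩
  have hstar_mem : ∀ g ∈ F, ((ends g).1 = v ∨ (ends g).2 = v) → g = e ∨ g = f := by
    intro g hg hgv
    have hmem : g ∈ Helper62.S0466.star ends F v := by
      simp only [Helper62.S0466.star, Finset.mem_filter]
      exact ⟨hg, hgv⟩
    rw [hstar] at hmem
    simpa using hmem
  by_cases huw : u = w
  · -- two parallel edges: `1_e - 1_f` is a kernel vector of the star map
    subst huw
    have hh : (fun g : E => (if g = e then (1 : ℝ) else 0) - (if g = f then 1 else 0)) = 0 := by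
      apply hinj
      · intro g hg
        have h1 : g ≠ e := fun h' => hg (h' ▸ heF)
        have h2 : g ≠ f := fun h' => hg (h' ▸ hfF)
        simp [h1, h2]
      · intro z hz
        rw [Finset.sum_sub_distrib, Finset.sum_ite_eq', Finset.sum_ite_eq']
        have h1 : e ∈ Helper62.S0466.star ends F z ↔ f ∈ Helper62.S0466.star ends F z := by
          simp only [Helper62.S0466.star, Finset.mem_filter, heF, hfF, true_and]
          rcases he with ⟨a, b⟩ | ⟨a, b⟩ <;> rcases hf with ⟨c, d⟩ | ⟨c, d⟩ <;>
            simp only [a, b, c, d] <;> tauto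
        by_cases h2 : e ∈ Helper62.S0466.star ends F z
        · have h3 : f ∈ Helper62.S0466.star ends F z := h1.mp h2
          rw [if_pos h2, if_pos h3, sub_self]
        · have h3 : f ∉ Helper62.S0466.star ends F z := fun h' => h2 (h1.mpr h')
          rw [if_neg h2, if_neg h3, sub_self]
    have := congrFun hh e
    simp [hef] at this
  · -- a path u - v - w
    have hvw : v ≠ w := fun h => hwv h.symm
    have hvu : v ≠ u := fun h => huv h.symm
    have hwu : w ≠ u := fun h => huw h.symm
    have hScard : ({u, v, w} : Finset V).card = 3 := by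
      rw [Finset.card_insert_of_notMem, Finset.card_insert_of_notMem, Finset.card_singleton]
      · simpa using hvw
      · simp [huv, huw]
    have hSA : ({u, v, w} : Finset V) ⊆ A := by
      intro z hz
      simp only [Finset.mem_insert, Finset.mem_singleton] at hz
      rcases hz with rfl | rfl | rfl <;> assumption
    have hodd3 : Odd ({u, v, w} : Finset V).card := by rw [hScard]; decide
    have h3 : ∑ g ∈ F, nEnds ends {u, v, w} g * x g = 3 := by
      rw [← star_sum_eq hWF {u, v, w} x, Finset.sum_congr rfl (fun s hs => hxstar s (hSA hs))]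
      simp [hScard]
    have hsplit : ∑ g ∈ F, nEnds ends {u, v, w} g * x g
        = ∑ g ∈ cut ends F {u, v, w}, x g + 2 * ∑ g ∈ F, xBoth ends {u, v, w} g * x g := by
      rw [sum_cut_eq_xOne, Finset.mul_sum, ← Finset.sum_add_distrib]
      refine Finset.sum_congr rfl fun g _ => ?_
      rw [nEnds_eq]
      ring
    have hbe : xBoth ends {u, v, w} e = 1 := by
      unfold xBoth
      rcases he with ⟨a, b⟩ | ⟨a, b⟩ <;> simp [a, b]
    have hbf : xBoth ends {u, v, w} f = 1 := by
      unfold xBoth
      rcases hf with ⟨a, b⟩ | ⟨a, b⟩ <;> simp [a, b]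
    have hbnn : ∀ g ∈ F, 0 ≤ xBoth ends {u, v, w} g * x g :=
      fun g _ => mul_nonneg (xBoth_nonneg ends _ g) (hxnn g)
    have hxef : x e + x f = 1 := by
      have := hxstar v hvA
      rw [hstar, Finset.sum_pair hef] at this
      exact this
    have hlow : ∀ T : Finset E, T ⊆ F →
        ∑ g ∈ T, xBoth ends {u, v, w} g * x g ≤ ∑ g ∈ F, xBoth ends {u, v, w} g * x g :=
      fun T hT => Finset.sum_le_sum_of_subset_of_nonneg hT (fun g hg _ => hbnn g hg)
    have hge1 : 1 ≤ ∑ g ∈ F, xBoth ends {u, v, w} g * x g := by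
      have := hlow {e, f} (by
        intro g hg
        simp only [Finset.mem_insert, Finset.mem_singleton] at hg
        rcases hg with rfl | rfl <;> assumption)
      rw [Finset.sum_pair hef, hbe, hbf] at this
      linarith
    have hcut1 : 1 ≤ ∑ g ∈ cut ends F {u, v, w}, x g := hxcut _ hSA hodd3
    have htight : ∑ g ∈ cut ends F {u, v, w}, x g = 1 := by linarith
    have hbsum : ∑ g ∈ F, xBoth ends {u, v, w} g * x g = 1 := by linarith
    -- no third edge inside `S`
    have hno : ∀ g ∈ F, g ≠ e → g ≠ f → xBoth ends {u, v, w} g = 0 := by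
      intro g hg hge hgf
      by_contra hb
      have hb1 : xBoth ends {u, v, w} g = 1 := by
        unfold xBoth at hb ⊢
        split_ifs at hb ⊢ with hc
        · rfl
        · exact absurd rfl hb
      have := hlow {g, e, f} (by
        intro g' hg'
        simp only [Finset.mem_insert, Finset.mem_singleton] at hg'
        rcases hg' with rfl | rfl | rfl <;> assumption)
      rw [Finset.sum_insert (by simp [hge, hgf]), Finset.sum_pair hef, hb1, hbe, hbf] at this
      have := hpos g hg
      linarith
    -- `|A| = 4`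
    have hAcard : A.card = 4 := by
      have h5 : ¬ (({u, v, w} : Finset V).card + 3 ≤ A.card) :=
        fun h => hnt _ hSA hodd3 (by rw [hScard]) h htight
      have h3' : ({u, v, w} : Finset V).card ≤ A.card := Finset.card_le_card hSA
      have hev : Even A.card := by
        by_contra hodd
        have hodd' : Odd A.card := Nat.not_even_iff_odd.mp hodd
        have h1 := hxcut A (Finset.Subset.refl A) hodd'
        have h2 : cut ends F A = ∅ := by
          ext g
          simp only [cut, Finset.mem_filter, Finset.notMem_empty, iff_false, not_and]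
          intro hg
          have := hWF g hg
          tauto
        rw [h2, Finset.sum_empty] at h1
        linarith
      obtain ⟨k, hk⟩ := hev
      omega
    obtain ⟨t, ht⟩ : ∃ t, A \ ({u, v, w} : Finset V) = {t} := by
      apply Finset.card_eq_one.mp
      rw [Finset.card_sdiff_of_subset hSA]
      omega
    have htmem : t ∈ A \ ({u, v, w} : Finset V) := by rw [ht]; simp
    simp only [Finset.mem_sdiff, Finset.mem_insert, Finset.mem_singleton, not_or] at htmem
    obtain ⟨htA, htu, htv, htw⟩ := htmem
    have hA4 : ∀ z ∈ A, z = u ∨ z = v ∨ z = w ∨ z = t := by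
      intro z hz
      by_cases hzS : z ∈ ({u, v, w} : Finset V)
      · simp only [Finset.mem_insert, Finset.mem_singleton] at hzS
        tauto
      · have hz' : z ∈ A \ ({u, v, w} : Finset V) := Finset.mem_sdiff.mpr ⟨hz, hzS⟩
        rw [ht, Finset.mem_singleton] at hz'
        tauto
    -- every edge has exactly one end in `{u, w}`
    have hone : ∀ g ∈ F, nEnds ends {u, w} g = 1 := by
      intro g hg
      obtain ⟨h1, h2, h3⟩ := hWF g hg
      have hvt : ¬ (((ends g).1 = v ∧ (ends g).2 = t) ∨ ((ends g).1 = t ∧ (ends g).2 = v)) := by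
        intro hc
        have hgv : (ends g).1 = v ∨ (ends g).2 = v := by tauto
        rcases hstar_mem g hg hgv with rfl | rfl
        · rcases he with ⟨a, b⟩ | ⟨a, b⟩ <;> rcases hc with ⟨c, d⟩ | ⟨c, d⟩
          · exact htu (d.symm.trans b)
          · exact htv (c.symm.trans a)
          · exact huv (a.symm.trans c)
          · exact htu (c.symm.trans a)
        · rcases hf with ⟨a, b⟩ | ⟨a, b⟩ <;> rcases hc with ⟨c, d⟩ | ⟨c, d⟩
          · exact htw (d.symm.trans b)
          · exact htv (c.symm.trans a)
          · exact hwv (a.symm.trans c)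
          · exact htw (c.symm.trans a)
      have huw' : ¬ (((ends g).1 = u ∧ (ends g).2 = w) ∨ ((ends g).1 = w ∧ (ends g).2 = u)) := by
        intro hc
        have hnv : ¬ ((ends g).1 = v ∨ (ends g).2 = v) := by
          rcases hc with ⟨c, d⟩ | ⟨c, d⟩ <;> rw [c, d] <;> tauto
        have hge : g ≠ e := fun h' => hnv (h' ▸ hev)
        have hgf : g ≠ f := fun h' => hnv (h' ▸ hfv)
        have hb := hno g hg hge hgf
        unfold xBoth at hb
        rcases hc with ⟨c, d⟩ | ⟨c, d⟩ <;> simp [c, d] at hb
      unfold nEnds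
      simp only [Finset.mem_insert, Finset.mem_singleton]
      exact count_aux huv huw hwv htu htv htw (hA4 _ h1) (hA4 _ h2) h3 hvt huw'
    -- the star map is not onto
    obtain ⟨h, hh0, hh⟩ := hsurj (fun z => if z = v then 1 else 0)
    have e1 := star_sum_eq hWF A h
    have e2 := star_sum_eq hWF {u, w} h
    have l1 : ∑ s ∈ A, ∑ g ∈ Helper62.S0466.star ends F s, h g = 1 := by
      rw [Finset.sum_congr rfl (fun s hs => hh s hs)]
      simp [hvA]
    have l2 : ∑ s ∈ ({u, w} : Finset V), ∑ g ∈ Helper62.S0466.star ends F s, h g = 0 := by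
      rw [Finset.sum_pair huw, hh u huA, hh w hwA]
      simp [huv, hwv]
    have r1 : ∑ g ∈ F, nEnds ends A g * h g = 2 * ∑ g ∈ F, h g := by
      rw [Finset.mul_sum]
      refine Finset.sum_congr rfl fun g hg => ?_
      obtain ⟨h1, h2, -⟩ := hWF g hg
      simp only [nEnds, h1, h2, if_true]
      ring
    have r2 : ∑ g ∈ F, nEnds ends {u, w} g * h g = ∑ g ∈ F, h g := by
      refine Finset.sum_congr rfl fun g hg => ?_
      rw [hone g hg, one_mul]
    linarith

end Crest.Agent.Helper65.S0466
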